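import Vale.Agent.P325.H227.K2.PruneAux

/-!
# The pruning lemma from the direction lemma
-/

namespace Vale.Agent.P325.K2.H227

open Finset

/-- Slices with small support. -/
theorem slice_bound {n L : ℕ} (hn : 0 < n) (hL : 0 < L) (g d : (Fin n → Fin L) → ℝ)
    (hg : ∀ a, 0 ≤ g a) (hd : ∀ a, 0 ≤ d a) (hgd : ∀ a a', Adj1 a a' → g a ≤ g a' + d a)
    (dir : (Fin n → Fin L) → Fin n)
    (hdir : ∀ k x, (#{v : Fin L | g (Function.update x k v) ≠ 0 ∧
      dir (Function.update x k v) = k} : ℝ) * (4 * n) ≤ L) :
    ∑ a, g a ≤ 1 / 4 * ∑ a, g a + L / 4 * ∑ a, d a := by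
  classical
  have hL' : (0 : ℝ) < L := by exact_mod_cast hL
  have key : ∀ (a : Fin n → Fin L) (k : Fin n) (v : Fin L),
      g a ≤ g (Function.update a k v) + ∑ w, d (Function.update a k w) := by
    intro a k v
    have h := chain (fun w => g (Function.update a k w)) (fun w => d (Function.update a k w))
      (fun _ => hd _) (fun u w huw => hgd _ _ ⟨k, fun k' hk' => by
        rw [Function.update_of_ne hk', Function.update_of_ne hk'], by
        simpa using huw⟩) (a k) v
    simpa using h
  have key2 : ∀ (a : Fin n → Fin L) (k : Fin n),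
      g a ≤ ∑ v, (1 / L * g (Function.update a k v) + d (Function.update a k v)) := by
    intro a k
    have h1 : ∑ _v : Fin L, g a ≤ ∑ v : Fin L, (g (Function.update a k v) +
        ∑ w, d (Function.update a k w)) := sum_le_sum fun v _ => key a k v
    rw [sum_add_distrib, sum_const, sum_const, card_univ, Fintype.card_fin, nsmul_eq_mul,
      nsmul_eq_mul] at h1
    rw [sum_add_distrib, ← mul_sum]
    have h2 : g a = 1 / L * (L * g a) := by field_simp
    rw [h2]
    calc 1 / (L : ℝ) * (L * g a) ≤ 1 / L * (∑ v, g (Function.update a k v) +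
          L * ∑ w, d (Function.update a k w)) :=
          mul_le_mul_of_nonneg_left h1 (by positivity)
      _ = _ := by field_simp
  have h3 : ∑ a, g a ≤ ∑ a, if g a ≠ 0 then
      ∑ v, (1 / L * g (Function.update a (dir a) v) + d (Function.update a (dir a) v)) else 0 := by
    refine sum_le_sum fun a _ => ?_
    by_cases h : g a ≠ 0
    · rw [if_pos h]; exact key2 a (dir a)
    · rw [if_neg h]; push Not at h; exact h.le
  have h4 := dirsum hn (fun a => g a ≠ 0) dir hdir (fun a => 1 / L * g a + d a)
    (fun a => add_nonneg (mul_nonneg (by positivity) (hg a)) (hd a))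
  refine (h3.trans h4).trans_eq ?_
  rw [sum_add_distrib, ← mul_sum]
  field_simp

/-- The pruning lemma from the direction lemma. -/
theorem prune (hDir : DirThm) : PruneThm := by
  classical
  intro n N L hn hN hL ψ D hψ hD hψD hsupp
  have hn' : (0 : ℝ) < n := by exact_mod_cast hn
  have hN' : (0 : ℝ) < N := by exact_mod_cast hN
  have hL' : (0 : ℝ) < L := by exact_mod_cast hL
  -- the supports of the slices
  set B : (Fin n → Fin N) → Finset (Fin n → Fin L) := fun c => {a | ψ c a ≠ 0} with hB
  set T : Finset (Fin n → Fin N) := {c | (L : ℝ) ^ n ≤ (#(B c) : ℝ) * (4 * n) ^ n} with hT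
  have hcard : (#{z : (Fin n → Fin N) × (Fin n → Fin L) | ψ z.1 z.2 ≠ 0} : ℝ) =
      ∑ c, (#(B c) : ℝ) := by
    rw [← Nat.cast_sum]
    congr 1
    rw [card_filter, Fintype.sum_prod_type]
    refine sum_congr rfl fun c _ => ?_
    rw [hB, card_filter]
  have hT1 : (#T : ℝ) * (4 * n) ^ n < (N : ℝ) ^ n := by
    have h1 : (#T : ℝ) * (L : ℝ) ^ n ≤ (∑ c, (#(B c) : ℝ)) * (4 * n) ^ n := by
      rw [← nsmul_eq_mul, ← sum_const, sum_mul]
      calc ∑ _c ∈ T, (L : ℝ) ^ n ≤ ∑ c ∈ T, (#(B c) : ℝ) * (4 * n) ^ n := by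
            refine sum_le_sum fun c hc => ?_
            rw [hT, mem_filter] at hc
            exact hc.2
        _ ≤ ∑ c, (#(B c) : ℝ) * (4 * n) ^ n :=
            sum_le_sum_of_subset_of_nonneg (subset_univ _) fun _ _ _ => by positivity
    rw [← hcard] at h1
    have h2 : (#T : ℝ) * (4 * n) ^ n * (L : ℝ) ^ n < (N : ℝ) ^ n * (L : ℝ) ^ n := by
      calc (#T : ℝ) * (4 * n) ^ n * (L : ℝ) ^ n = (#T : ℝ) * (L : ℝ) ^ n * (4 * n) ^ n := by ring
        _ ≤ (#{z : (Fin n → Fin N) × (Fin n → Fin L) | ψ z.1 z.2 ≠ 0} : ℝ) * (4 * n) ^ n *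
            (4 * n) ^ n := mul_le_mul_of_nonneg_right h1 (by positivity)
        _ = (#{z : (Fin n → Fin N) × (Fin n → Fin L) | ψ z.1 z.2 ≠ 0} : ℝ) *
            (4 * n) ^ (2 * n) := by ring
        _ < _ := hsupp
    exact lt_of_mul_lt_mul_right h2 (by positivity)
  -- directions of the windows
  obtain ⟨dT, hdT⟩ := hDir n N T hn hT1
  -- the sums over the slices
  set Ψ : (Fin n → Fin N) → ℝ := fun c => ∑ a, ψ c a with hΨ
  set Δ : (Fin n → Fin N) → ℝ := fun c => ∑ a, D c a with hΔ
  have hΨ0 : ∀ c, 0 ≤ Ψ c := fun c => sum_nonneg fun a _ => hψ c a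
  have hΔ0 : ∀ c, 0 ≤ Δ c := fun c => sum_nonneg fun a _ => hD c a
  -- windows with small slices
  have hout : ∀ c, c ∉ T → Ψ c ≤ 1 / 4 * Ψ c + L / 4 * Δ c := by
    intro c hc
    rw [hT, mem_filter] at hc
    push Not at hc
    obtain ⟨dir, hdir⟩ := hDir n L (B c) hn (hc (mem_univ _))
    refine slice_bound hn hL (ψ c) (D c) (hψ c) (hD c) (hψD c) dir fun k x => ?_
    have h := hdir k x
    simpa [hB] using h
  -- windows with large slices
  set E : Fin n → (Fin n → Fin N) → ℝ := fun k c => ∑ a,
    if (a k : ℕ) = 0 then (∑ j, max 0 (ψ c a - ψ (Function.update c k j) a)) / N else 0 with hE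
  have hE0 : ∀ k c, 0 ≤ E k c := by
    intro k c
    refine sum_nonneg fun a _ => ?_
    split_ifs
    · exact div_nonneg (sum_nonneg fun j _ => le_max_left _ _) hN'.le
    · exact le_rfl
  have key : ∀ (c : Fin n → Fin N) (a : Fin n → Fin L) (k : Fin n) (v : Fin L),
      ψ c a ≤ ψ c (Function.update a k v) + ∑ w, D c (Function.update a k w) := by
    intro c a k v
    have h := chain (fun w => ψ c (Function.update a k w)) (fun w => D c (Function.update a k w))
      (fun _ => hD _ _) (fun u w huw => hψD c _ _ ⟨k, fun k' hk' => by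
        rw [Function.update_of_ne hk', Function.update_of_ne hk'], by
        simpa using huw⟩) (a k) v
    simpa using h
  have key' : ∀ (c : Fin n → Fin N) (a : Fin n → Fin L) (k : Fin n) (v : Fin L),
      ψ c (Function.update a k v) ≤ ψ c a + ∑ w, D c (Function.update a k w) := by
    intro c a k v
    have h := key c (Function.update a k v) k (a k)
    simpa using h
  -- sums over lines
  have hline : ∀ (k : Fin n) (g : (Fin n → Fin L) → ℝ),
      ∑ a, ∑ w, g (Function.update a k w) = L * ∑ a, g a := by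
    intro k g
    have h := line_sum k (fun _ => True) g
    simp only [if_true] at h
    rw [h, mul_sum]
    refine sum_congr rfl fun x _ => ?_
    rw [filter_true, card_univ, Fintype.card_fin, mul_comm]
  have hfirst : ∀ (k : Fin n) (h : (Fin n → Fin L) → ℝ),
      ∑ a, h (Function.update a k ⟨0, hL⟩) = L * ∑ a, if (a k : ℕ) = 0 then h a else 0 := by
    intro k h
    rw [← hline k]
    refine sum_congr rfl fun a _ => ?_
    rw [Finset.sum_eq_single (⟨0, hL⟩ : Fin L)]
    · simp
    · intro b _ hb
      rw [if_neg]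
      intro hb'
      apply hb
      rw [Function.update_self] at hb'
      exact Fin.ext hb'
    · intro hb
      exact absurd (mem_univ _) hb
  have hin : ∀ (k : Fin n) (c : Fin n → Fin N),
      Ψ c ≤ L * Δ c + L * E k c + ∑ j, (1 / N * Ψ (Function.update c k j) +
        L / N * Δ (Function.update c k j)) := by
    intro k c
    have h1 : ∀ a, ψ c a ≤ (∑ w, D c (Function.update a k w)) +
        (∑ j, max 0 (ψ c (Function.update a k ⟨0, hL⟩) -
          ψ (Function.update c k j) (Function.update a k ⟨0, hL⟩))) / N +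
        ∑ j, (1 / N * ψ (Function.update c k j) a +
          1 / N * ∑ w, D (Function.update c k j) (Function.update a k w)) := by
      intro a
      have h2 := key c a k ⟨0, hL⟩
      have h3 : ∀ j, ψ c (Function.update a k ⟨0, hL⟩) ≤
          max 0 (ψ c (Function.update a k ⟨0, hL⟩) -
            ψ (Function.update c k j) (Function.update a k ⟨0, hL⟩)) +
          (ψ (Function.update c k j) a +
            ∑ w, D (Function.update c k j) (Function.update a k w)) := by
        intro j
        have h4 := key' (Function.update c k j) a k ⟨0, hL⟩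
        have h5 := le_max_right 0 (ψ c (Function.update a k ⟨0, hL⟩) -
            ψ (Function.update c k j) (Function.update a k ⟨0, hL⟩))
        linarith
      have h6 : (N : ℝ) * ψ c (Function.update a k ⟨0, hL⟩) ≤
          ∑ j, (max 0 (ψ c (Function.update a k ⟨0, hL⟩) -
            ψ (Function.update c k j) (Function.update a k ⟨0, hL⟩)) +
          (ψ (Function.update c k j) a +
            ∑ w, D (Function.update c k j) (Function.update a k w))) := by
        have h7 := sum_le_sum fun (j : Fin N) (_ : j ∈ univ) => h3 j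
        rw [sum_const, card_univ, Fintype.card_fin, nsmul_eq_mul] at h7
        exact h7
      have h8 : ψ c (Function.update a k ⟨0, hL⟩) ≤
          (∑ j, (max 0 (ψ c (Function.update a k ⟨0, hL⟩) -
            ψ (Function.update c k j) (Function.update a k ⟨0, hL⟩)) +
          (ψ (Function.update c k j) a +
            ∑ w, D (Function.update c k j) (Function.update a k w)))) / N := by
        rw [le_div_iff₀ hN', mul_comm]
        exact h6
      rw [sum_add_distrib, add_div] at h8
      have h9 : (∑ j, (ψ (Function.update c k j) a +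
            ∑ w, D (Function.update c k j) (Function.update a k w))) / N =
          ∑ j, (1 / N * ψ (Function.update c k j) a +
          1 / N * ∑ w, D (Function.update c k j) (Function.update a k w)) := by
        rw [div_eq_mul_one_div, sum_mul]
        refine sum_congr rfl fun j _ => ?_
        ring
      rw [h9] at h8
      linarith
    have h10 : Ψ c ≤ ∑ a, ((∑ w, D c (Function.update a k w)) +
        (∑ j, max 0 (ψ c (Function.update a k ⟨0, hL⟩) -
          ψ (Function.update c k j) (Function.update a k ⟨0, hL⟩))) / N +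
        ∑ j, (1 / N * ψ (Function.update c k j) a +
          1 / N * ∑ w, D (Function.update c k j) (Function.update a k w))) :=
      sum_le_sum fun a _ => h1 a
    refine h10.trans_eq ?_
    rw [sum_add_distrib, sum_add_distrib, hline k (D c),
      hfirst k (fun a => (∑ j, max 0 (ψ c a - ψ (Function.update c k j) a)) / N), sum_comm]
    congr 1
    refine sum_congr rfl fun j _ => ?_
    rw [sum_add_distrib, ← mul_sum, ← mul_sum, hline k (D (Function.update c k j))]
    simp only [hΨ, hΔ]
    ring
  -- the sum over T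
  have hTsum : ∑ c, (if c ∈ T then Ψ c else 0) ≤ L * ∑ c, (if c ∈ T then Δ c else 0) +
      L * (∑ k, ∑ c, E k c) + (1 / 4 * ∑ c, Ψ c + L / 4 * ∑ c, Δ c) := by
    have h1 : ∀ c, (if c ∈ T then Ψ c else 0) ≤ L * (if c ∈ T then Δ c else 0) +
        L * (∑ k, E k c) + (if c ∈ T then ∑ j, (1 / N * Ψ (Function.update c (dT c) j) +
          L / N * Δ (Function.update c (dT c) j)) else 0) := by
      intro c
      by_cases hc : c ∈ T
      · simp only [if_pos hc]
        have h2 := hin (dT c) c
        have h3 : E (dT c) c ≤ ∑ k, E k c :=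
          single_le_sum (f := fun k => E k c) (fun k _ => hE0 k c) (mem_univ _)
        have h4 := mul_le_mul_of_nonneg_left h3 hL'.le
        linarith
      · simp only [if_neg hc]
        have h3 : 0 ≤ ∑ k, E k c := sum_nonneg fun k _ => hE0 k c
        have h4 := mul_nonneg hL'.le h3
        linarith
    have h2 := dirsum hn (fun c => c ∈ T) dT (fun k x => by
      have h := hdT k x
      simpa using h) (fun c => 1 / N * Ψ c + L / N * Δ c)
      (fun c => add_nonneg (mul_nonneg (by positivity) (hΨ0 c))
        (mul_nonneg (by positivity) (hΔ0 c)))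
    have h3 := sum_le_sum fun c (_ : c ∈ (univ : Finset (Fin n → Fin N))) => h1 c
    have h7 : ∑ c, ∑ k, E k c = ∑ k, ∑ c, E k c := sum_comm
    rw [sum_add_distrib, sum_add_distrib, ← mul_sum, ← mul_sum, h7] at h3
    have h4 : (N : ℝ) / 4 * ∑ c, (1 / N * Ψ c + L / N * Δ c) =
        1 / 4 * ∑ c, Ψ c + L / 4 * ∑ c, Δ c := by
      rw [sum_add_distrib, ← mul_sum, ← mul_sum]
      field_simp
    rw [h4] at h2
    linarith
  -- the total
  have htot : ∑ c, Ψ c = ∑ c, (if c ∈ T then Ψ c else 0) + ∑ c, (if c ∈ T then 0 else Ψ c) := by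
    rw [← sum_add_distrib]
    refine sum_congr rfl fun c _ => ?_
    by_cases hc : c ∈ T <;> simp [hc]
  have hout2 : ∑ c, (if c ∈ T then 0 else Ψ c) ≤ 1 / 4 * ∑ c, Ψ c +
      L / 4 * ∑ c, (if c ∈ T then 0 else Δ c) := by
    rw [mul_sum, mul_sum, ← sum_add_distrib]
    refine sum_le_sum fun c _ => ?_
    by_cases hc : c ∈ T
    · simp only [if_pos hc]
      have := hΨ0 c
      linarith
    · simp only [if_neg hc]
      exact hout c hc
  have htotD : ∑ c, Δ c = ∑ c, (if c ∈ T then Δ c else 0) + ∑ c, (if c ∈ T then 0 else Δ c) := by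
    rw [← sum_add_distrib]
    refine sum_congr rfl fun c _ => ?_
    by_cases hc : c ∈ T <;> simp [hc]
  have hD1 : 0 ≤ ∑ c, (if c ∈ T then Δ c else 0) :=
    sum_nonneg fun c _ => by split_ifs; exacts [hΔ0 c, le_rfl]
  have hD2 : 0 ≤ ∑ c, (if c ∈ T then 0 else Δ c) :=
    sum_nonneg fun c _ => by split_ifs; exacts [le_rfl, hΔ0 c]
  have hD3 := mul_nonneg hL'.le hD1
  have hD4 := mul_nonneg hL'.le hD2
  change ∑ c, Ψ c ≤ 3 * L * ∑ c, Δ c + 2 * (L * ∑ k, ∑ c, E k c)
  have h5 : (3 : ℝ) * L * ∑ c, Δ c = 3 * (L * ∑ c, (if c ∈ T then Δ c else 0)) +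
      3 * (L * ∑ c, (if c ∈ T then 0 else Δ c)) := by
    rw [htotD]; ring
  have h6 : (L : ℝ) / 4 * ∑ c, Δ c = 1 / 4 * (L * ∑ c, (if c ∈ T then Δ c else 0)) +
      1 / 4 * (L * ∑ c, (if c ∈ T then 0 else Δ c)) := by
    rw [htotD]; ring
  rw [h5]
  rw [h6] at hTsum
  linarith

end Vale.Agent.P325.K2.H227
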