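import Vale.Agent.P325.H111.K2.Stmts

/-!
# Auxiliary lemmas for the pruning lemma: chains on a line, sums over lines
-/

namespace Vale.Agent.P325.K2.H227

open Finset

/-- Walk up. -/
theorem chain_up {L : ℕ} (g d : Fin L → ℝ) (hd : ∀ u, 0 ≤ d u)
    (h : ∀ u v : Fin L, |((u : ℕ) : ℤ) - ((v : ℕ) : ℤ)| = 1 → g u ≤ g v + d u) :
    ∀ (m : ℕ) (u v : Fin L), (v : ℕ) = u + m →
      g u ≤ g v + ∑ w, if u ≤ w ∧ w < v then d w else 0 := by
  intro m
  induction m with
  | zero =>
    intro u v huv
    have : v = u := Fin.ext (by omega)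
    subst this
    have h0 : 0 ≤ ∑ w, if v ≤ w ∧ w < v then d w else 0 :=
      sum_nonneg fun w _ => by split_ifs; exacts [hd w, le_rfl]
    linarith
  | succ m ih =>
    intro u v huv
    have hu1 : (u : ℕ) + 1 < L := by have := v.2; omega
    set u' : Fin L := ⟨(u : ℕ) + 1, hu1⟩ with hu'
    have h1 := ih u' v (by simp [hu']; omega)
    have h2 := h u u' (by simp [hu'])
    have h3 : d u + (∑ w, if u' ≤ w ∧ w < v then d w else 0) ≤
        ∑ w, if u ≤ w ∧ w < v then d w else 0 := by
      have h4 : d u = ∑ w, if w = u then d w else 0 := by simp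
      rw [h4, ← sum_add_distrib]
      refine sum_le_sum fun w _ => ?_
      by_cases hw : w = u
      · subst hw
        have h5 : ¬ (u' ≤ w ∧ w < v) := by
          rintro ⟨h6, _⟩
          rw [Fin.le_def] at h6
          simp [hu'] at h6
        have h6 : w ≤ w ∧ w < v := ⟨le_rfl, by rw [Fin.lt_def]; omega⟩
        rw [if_pos rfl, if_neg h5, if_pos h6, add_zero]
      · rw [if_neg hw, zero_add]
        by_cases h5 : u' ≤ w ∧ w < v
        · have h6 : u ≤ w ∧ w < v := by
            refine ⟨?_, h5.2⟩
            have := h5.1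
            rw [Fin.le_def] at this ⊢
            simp only [hu'] at this
            omega
          rw [if_pos h5, if_pos h6]
        · rw [if_neg h5]
          split_ifs
          exacts [hd w, le_rfl]
    linarith

/-- Walk on a line. -/
theorem chain {L : ℕ} (g d : Fin L → ℝ) (hd : ∀ u, 0 ≤ d u)
    (h : ∀ u v : Fin L, |((u : ℕ) : ℤ) - ((v : ℕ) : ℤ)| = 1 → g u ≤ g v + d u) (u v : Fin L) :
    g u ≤ g v + ∑ w, d w := by
  rcases le_total (u : ℕ) (v : ℕ) with huv | huv
  · have h1 := chain_up g d hd h (v - u) u v (by omega)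
    have h2 : (∑ w, if u ≤ w ∧ w < v then d w else 0) ≤ ∑ w, d w :=
      sum_le_sum fun w _ => by split_ifs; exacts [le_rfl, hd w]
    linarith
  · -- reverse the order
    have h1 := chain_up (fun w => g w.rev) (fun w => d w.rev) (fun w => hd _)
      (fun a b hab => h _ _ (by
        have h1 := a.2
        have h2 := b.2
        have h3 : (((a.rev : Fin L) : ℕ) : ℤ) - (((b.rev : Fin L) : ℕ) : ℤ) =
          -((((a : ℕ) : ℤ)) - ((b : ℕ) : ℤ)) := by
          rw [Fin.val_rev, Fin.val_rev]
          omega
        rw [h3, abs_neg, hab])) (u - v) u.rev v.rev (by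
        rw [Fin.val_rev, Fin.val_rev]
        have := u.2
        omega)
    simp only [Fin.rev_rev] at h1
    have h2 : (∑ w, if u.rev ≤ w ∧ w < v.rev then d w.rev else 0) ≤ ∑ w : Fin L, d w.rev :=
      sum_le_sum fun w _ => by split_ifs; exacts [le_rfl, hd _]
    have h3 : ∑ w : Fin L, d w.rev = ∑ w, d w := Equiv.sum_comp Fin.revPerm d
    linarith

/-- Exchange of a coordinate with an external one. -/
def swapE {n : ℕ} (α : Type) (k : Fin n) : (Fin n → α) × α ≃ (Fin n → α) × α where
  toFun p := (Function.update p.1 k p.2, p.1 k)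
  invFun p := (Function.update p.1 k p.2, p.1 k)
  left_inv := by
    rintro ⟨a, v⟩
    simp
  right_inv := by
    rintro ⟨a, v⟩
    simp

/-- Exchange of the sums over points of `S` and over points of the line. -/
theorem line_sum {n M : ℕ} (k : Fin n) (p : (Fin n → Fin M) → Prop) [DecidablePred p]
    (g : (Fin n → Fin M) → ℝ) :
    (∑ x, if p x then ∑ v, g (Function.update x k v) else 0) =
      ∑ x, g x * #{v | p (Function.update x k v)} := by
  have h1 : (∑ x, if p x then ∑ v, g (Function.update x k v) else 0) =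
      ∑ q : (Fin n → Fin M) × Fin M, if p q.1 then g (Function.update q.1 k q.2) else 0 := by
    rw [Fintype.sum_prod_type]
    refine sum_congr rfl fun x _ => ?_
    by_cases hx : p x
    · simp [hx]
    · simp [hx]
  have h2 : (∑ x, g x * (#{v | p (Function.update x k v)} : ℝ)) =
      ∑ q : (Fin n → Fin M) × Fin M, if p (Function.update q.1 k q.2) then g q.1 else 0 := by
    rw [Fintype.sum_prod_type]
    refine sum_congr rfl fun x _ => ?_
    rw [card_filter]
    push_cast
    rw [mul_sum]
    refine sum_congr rfl fun v _ => ?_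
    by_cases hx : p (Function.update x k v)
    · simp [hx]
    · simp [hx]
  rw [h1, h2, ← Equiv.sum_comp (swapE (Fin M) k)]
  refine sum_congr rfl fun q _ => ?_
  simp [swapE]

/-- A sum along directions. -/
theorem dirsum {n M : ℕ} (hn : 0 < n) (p : (Fin n → Fin M) → Prop) [DecidablePred p]
    (dir : (Fin n → Fin M) → Fin n)
    (hdir : ∀ k x, (#{v : Fin M | p (Function.update x k v) ∧
      dir (Function.update x k v) = k} : ℝ) * (4 * n) ≤ M)
    (g : (Fin n → Fin M) → ℝ) (hg : ∀ x, 0 ≤ g x) :
    (∑ x, if p x then ∑ v, g (Function.update x (dir x) v) else 0) ≤ M / 4 * ∑ x, g x := by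
  have h1 : (∑ x, if p x then ∑ v, g (Function.update x (dir x) v) else 0) =
      ∑ k, ∑ x, if p x ∧ dir x = k then ∑ v, g (Function.update x k v) else 0 := by
    rw [sum_comm]
    refine sum_congr rfl fun x _ => ?_
    by_cases hx : p x
    · simp [hx]
    · simp [hx]
  rw [h1]
  have hn' : (0 : ℝ) < n := by exact_mod_cast hn
  have h2 : ∀ k : Fin n, (∑ x, if p x ∧ dir x = k then ∑ v, g (Function.update x k v) else 0) ≤
      M / (4 * n) * ∑ x, g x := by
    intro k
    rw [line_sum k (fun x => p x ∧ dir x = k) g, mul_sum]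
    refine sum_le_sum fun x _ => ?_
    have h3 := hdir k x
    rw [mul_comm (M / (4 * n) : ℝ)]
    refine mul_le_mul_of_nonneg_left ?_ (hg x)
    rw [le_div_iff₀ (by positivity)]
    exact h3
  calc _ ≤ ∑ _k : Fin n, M / (4 * n) * ∑ x, g x := sum_le_sum fun k _ => h2 k
    _ = M / 4 * ∑ x, g x := by
      rw [sum_const, card_univ, Fintype.card_fin, nsmul_eq_mul]
      field_simp

end Vale.Agent.P325.K2.H227
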